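import Vale.Agent.P207.N4.H761.T3C
import Vale.Agent.P207.N4.H988.T3Q

/-!
# P207, line N4, row T3-GLUE, part D: `P.T3` from its inputs
-/

set_option maxSynthPendingDepth 3
set_option linter.unusedSectionVars false

open Set Filter Topology Metric MeasureTheory
open scoped ContDiff

noncomputable section

namespace Vale.Agent.P207.N4.H761

open Vale.Agent.P207.N3
open Vale.Agent.P207.H761 (inter' invertible_of_close norm_le_of_close taylor2 T3In)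

variable [Dim]

variable {Γ X B : Type} [Group Γ] [MetricSpace X] [ProperSpace X] [MulAction Γ X]
  [IsIsometricSMul Γ X] [TopologicalSpace B] [CompactSpace B] [T2Space B] [MulAction Γ B]
  [ContinuousConstSMul Γ B] {L : Leaf Γ X B} [MeasurableSpace B] [BorelSpace B] {V : Type}
  [NormedAddCommGroup V] [NormedSpace ℝ V] [FiniteDimensional ℝ V]

variable {P : Pic L V} {ρ C ρ' κ K : ℝ}

/-- rescaling -/
theorem scale_deriv {f F : E2 → E2} (h : ∀ q, f q = (1 / 2 : ℝ) • F ((2 : ℝ) • q)) {q : E2}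
    {A : E2 →L[ℝ] E2} (hF : HasFDerivAt F A ((2 : ℝ) • q)) : HasFDerivAt f A q := by
  have h1 : HasFDerivAt (fun q : E2 => (2 : ℝ) • q) ((2 : ℝ) • ContinuousLinearMap.id ℝ E2) q :=
    ((2 : ℝ) • ContinuousLinearMap.id ℝ E2).hasFDerivAt
  have h2 := (hF.comp q h1).const_smul (1 / 2 : ℝ)
  have e : f = fun q => (1 / 2 : ℝ) • F ((2 : ℝ) • q) := funext h
  rw [e]
  refine h2.congr_fderiv ?_
  ext1 v
  change (1 / 2 : ℝ) • A ((2 : ℝ) • v) = A v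
  rw [map_smul, smul_smul]
  norm_num

/-- the global part -/
theorem Gd.glob (S : Gd P ρ C ρ' κ K) {x : X} {ξ : B} (h : ξ ≠ L.ep x) {q : E2}
    (hq : P.Af.pt x q ≠ ξ) :
    ContDiffAt ℝ 1 (P.hh x ξ) q ∧ (fderiv ℝ (P.hh x ξ) q).IsInvertible := by
  have h1 : S.toIn.ai x ((2 : ℝ) • q) ≠ S.toIn.em (L.hol ξ x) := by
    change P.Af.pt x ((1 / 2 : ℝ) • ((2 : ℝ) • q)) ≠ L.em (L.hol ξ x)
    rw [L.hol_em _ _ h, smul_smul]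
    norm_num
    exact hq
  obtain ⟨h2, h3⟩ := S.toIn.hol_at h1
  set F : E2 → E2 := fun z => S.toIn.a (L.hol ξ x) (S.toIn.ai x z) with hF
  have e : ∀ q, P.hh x ξ q = (1 / 2 : ℝ) • F ((2 : ℝ) • q) := by
    intro q
    change P.Af.ch (L.hol ξ x) (P.Af.pt x q) = (1 / 2 : ℝ) • ((2 : ℝ) •
      P.Af.ch (L.hol ξ x) (P.Af.pt x ((1 / 2 : ℝ) • ((2 : ℝ) • q))))
    rw [smul_smul, smul_smul]
    norm_num
  have h4 := scale_deriv e (h2.differentiableAt (by norm_num)).hasFDerivAt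
  refine ⟨?_, ?_⟩
  · have e' : P.hh x ξ = fun q => (1 / 2 : ℝ) • F ((2 : ℝ) • q) := funext e
    rw [e']
    have h5 : ContDiffAt ℝ 1 (fun q : E2 => (2 : ℝ) • q) q := contDiffAt_id.const_smul 2
    exact (h2.comp q h5).const_smul (1 / 2 : ℝ)
  · rw [h4.fderiv]
    exact h3

/-- the estimate at the centre -/
theorem Gd.centre (S : Gd P ρ C ρ' κ K) : ∃ K' : ℝ, 0 ≤ K' ∧ ∀ x ξ, P.Nr ρ' x ξ →
    DifferentiableAt ℝ (P.hh x ξ) 0 ∧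
      ‖fderiv ℝ (P.hh x ξ) 0 - fderiv ℝ (P.Aq x ξ) 0‖ ≤ K' * ‖P.gr x ξ 0‖ ^ κ := by
  refine ⟨2 * max S.toIn.sys.KK 0, by positivity, fun x ξ h => ?_⟩
  have hG : (x, ξ) ∈ S.toIn.G := h
  have hNr : P.Nr ρ x ξ := by
    have h1 := S.self x ξ h 0
    rwa [Nat.cast_zero, L.φ_zero] at h1
  obtain ⟨h1, h2⟩ := S.toIn.good_deriv hG
  set Lx := S.toIn.sys.L (S.toIn.pr x ξ hG) with hLx
  set F : E2 → E2 := fun z => Mx P x ξ ((Mx P x ξ).symm ((2 : ℝ) •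
    P.Af.ch (L.hol ξ x) (P.Af.pt x ((1 / 2 : ℝ) • z)))) with hF
  have h3 : HasFDerivAt F ((Mx P x ξ : E2 →L[ℝ] E2).comp Lx) 0 :=
    (Mx P x ξ : E2 →L[ℝ] E2).hasFDerivAt.comp 0 h1
  have e : ∀ q, P.hh x ξ q = (1 / 2 : ℝ) • F ((2 : ℝ) • q) := by
    intro q
    rw [hF]
    simp only [ContinuousLinearEquiv.apply_symm_apply]
    change P.Af.ch (L.hol ξ x) (P.Af.pt x q) = (1 / 2 : ℝ) • ((2 : ℝ) •
      P.Af.ch (L.hol ξ x) (P.Af.pt x ((1 / 2 : ℝ) • ((2 : ℝ) • q))))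
    rw [smul_smul, smul_smul]
    norm_num
  have h4 : HasFDerivAt (P.hh x ξ) ((Mx P x ξ : E2 →L[ℝ] E2).comp Lx) 0 :=
    scale_deriv e (by rw [smul_zero]; exact h3)
  refine ⟨h4.differentiableAt, ?_⟩
  have hM := Mx_coe (invertible_of_close (S.near x ξ hNr 0 (mem_ball_self one_pos)))
  rw [h4.fderiv, ← hM]
  have e2 : (Mx P x ξ : E2 →L[ℝ] E2).comp Lx - (Mx P x ξ : E2 →L[ℝ] E2) =
      (Mx P x ξ : E2 →L[ℝ] E2).comp (Lx - 1) := by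
    ext1 v
    simp
  rw [e2]
  have hn : ‖(Mx P x ξ : E2 →L[ℝ] E2)‖ ≤ 2 :=
    ContinuousLinearMap.opNorm_le_bound _ (by norm_num) fun v => S.toBas.Mx_le hNr v
  have ht : 0 ≤ ‖P.gr x ξ 0‖ ^ κ := Real.rpow_nonneg (norm_nonneg _) _
  calc _ ≤ ‖(Mx P x ξ : E2 →L[ℝ] E2)‖ * ‖Lx - 1‖ := ContinuousLinearMap.opNorm_comp_le _ _
    _ ≤ 2 * (S.toIn.sys.KK * ‖P.gr x ξ 0‖ ^ κ) := mul_le_mul hn h2 (norm_nonneg _) (by norm_num)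
    _ ≤ 2 * (max S.toIn.sys.KK 0 * ‖P.gr x ξ 0‖ ^ κ) := by
        refine mul_le_mul_of_nonneg_left ?_ (by norm_num)
        exact mul_le_mul_of_nonneg_right (le_max_left _ _) ht
    _ = _ := by ring

/-- the data of the instance exist -/
theorem Bas.exists_gd (S : Bas P ρ C) (hB : BaseCh P ρ)
    (hM : ∀ ξ v, ContinuousOn (fun x => fderiv ℝ (P.Aq x ξ) 0 v) {x | P.Nr ρ x ξ}) :
    ∃ ρ', 0 < ρ' ∧ ρ' ≤ ρ ∧ ∀ κ : ℝ, 0 < κ → κ < 1 → 2 * P.Ra.b < 2 * P.Ra.a + κ * P.Ra.a →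
      ∃ K, Gd P ρ C ρ' κ K := by
  obtain ⟨CB, hCB⟩ := hB
  have hC1 := S.C_ge
  have hCp := S.C_pos
  have hρ := S.ρ_pos
  have hD : 1 ≤ max CB 1 := le_max_right _ _
  have hDp : 0 < max CB 1 := by linarith
  obtain ⟨ρ', hρ'⟩ : ∃ ρ' : ℝ, ρ' = ρ / (C * max CB 1) := ⟨_, rfl⟩
  have h0 : 0 < ρ' := by rw [hρ']; positivity
  have h1 : C * max CB 1 * ρ' = ρ := by rw [hρ']; field_simp
  have h2 : ρ' ≤ ρ := by
    rw [← h1]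
    exact le_mul_of_one_le_left h0.le (one_le_mul_of_one_le_of_one_le hC1 hD)
  have hflow : ∀ x ξ, 0 < P.Bu.nu x ξ 0 → ‖P.gr x ξ 0‖ ≤ max CB 1 * ρ' → ∀ n : ℕ,
      P.Nr ρ (L.φ n x) ξ := by
    intro x ξ hx hg n
    obtain ⟨g1, g2⟩ := S.ang x ξ hx n (Nat.cast_nonneg n)
    refine ⟨g1, g2.trans ?_⟩
    have hexp : Real.exp (-(P.Ra.a * n)) ≤ 1 := by
      rw [Real.exp_le_one_iff]
      have := P.Ra.a_pos
      have : 0 ≤ P.Ra.a * n := by positivity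
      linarith
    calc C * Real.exp (-(P.Ra.a * n)) * ‖P.gr x ξ 0‖ ≤ C * 1 * (max CB 1 * ρ') :=
          mul_le_mul (mul_le_mul_of_nonneg_left hexp hCp.le) hg (norm_nonneg _) (by positivity)
      _ = ρ := by rw [← h1]; ring
  refine ⟨ρ', h0, h2, fun κ hκ0 hκ hp => ?_⟩
  obtain ⟨K, hK0, hK⟩ := S.f2 hκ0 hκ
  refine ⟨K, ⟨S, hκ0, hκ, hp, ?_, ?_, fun x ξ h => exists_nr h0 h, hM, hK0, hK⟩⟩
  · intro x ξ h q hq n
    obtain ⟨g1, g2⟩ := hCB x ξ (nr_mono h2 h) q hq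
    refine hflow _ ξ g1 (g2.trans ?_) n
    exact mul_le_mul (le_max_left _ _) h.2 (norm_nonneg _) hDp.le
  · intro x ξ h n
    exact hflow x ξ h.1 (h.2.trans (le_mul_of_one_le_left h0.le hD)) n

/-- every exponent `κ < 1` -/
theorem rpow_max {t κ κ' : ℝ} (ht : 0 ≤ t) (ht1 : t ≤ 1) (h0 : 0 < κ') (h : κ ≤ κ') :
    t ^ κ' ≤ t ^ κ := by
  rcases ht.eq_or_lt with h1 | h1
  · rw [← h1, Real.zero_rpow h0.ne']
    exact Real.rpow_nonneg le_rfl _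
  · exact Real.rpow_le_rpow_of_exponent_ge h1 ht1 h

/-- **(T3) from its inputs** -/
theorem t3_of {ε₀ : ℝ} (h0 : 0 < ε₀) (hR : P.RateP) (hA : AngF P) (h2a : P.T2a ε₀)
    (h2h : P.T2h ε₀) (hH : HqC P ε₀) (hB : BaseCh P ε₀)
    (hM : ∀ ξ v, ContinuousOn (fun x => fderiv ℝ (P.Aq x ξ) 0 v) {x | P.Nr ε₀ x ξ}) :
    ∃ ε₁, 0 < ε₁ ∧ ε₁ ≤ ε₀ ∧ ∀ ε ≤ ε₁, P.T3 ε := by
  obtain ⟨ρ, C, hρε, S⟩ := exists_bas h0 hR hA h2a h2h hH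
  have hBρ : BaseCh P ρ := by
    obtain ⟨CB, hCB⟩ := hB
    exact ⟨CB, fun x ξ h => hCB x ξ (nr_mono hρε h)⟩
  obtain ⟨ρ', hρ'0, hρ'ρ, hG⟩ := S.exists_gd hBρ fun ξ v =>
    (hM ξ v).mono fun x hx => nr_mono hρε hx
  have hb := P.Ra.pinch
  have ha := P.Ra.a_pos
  have hab := P.Ra.a_le_b
  set m : ℝ := (1 + (2 * P.Ra.b - 2 * P.Ra.a) / P.Ra.a) / 2 with hm
  have hm0 : 0 ≤ (2 * P.Ra.b - 2 * P.Ra.a) / P.Ra.a := by
    apply div_nonneg <;> linarith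
  have hm1 : (2 * P.Ra.b - 2 * P.Ra.a) / P.Ra.a < 1 := by
    rw [div_lt_one ha]; linarith
  have hm2 : 0 < m := by rw [hm]; linarith
  have hm3 : m < 1 := by rw [hm]; linarith
  have hm4 : 2 * P.Ra.b - 2 * P.Ra.a < m * P.Ra.a := by
    rw [← div_lt_iff₀ ha, hm]; linarith
  have hall : ∀ κ : ℝ, m ≤ κ → κ < 1 → ∃ K, Gd P ρ C ρ' κ K := fun κ h1 h2 =>
    hG κ (hm2.trans_le h1) h2 (by
      have : m * P.Ra.a ≤ κ * P.Ra.a := mul_le_mul_of_nonneg_right h1 ha.le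
      linarith)
  have hz : ∀ κ : ℝ, κ < 1 → ∃ C, ∀ x ξ, P.Nr ρ' x ξ → DifferentiableAt ℝ (P.hh x ξ) 0 ∧
      ‖fderiv ℝ (P.hh x ξ) 0 - fderiv ℝ (P.Aq x ξ) 0‖ ≤ C * ‖P.gr x ξ 0‖ ^ κ := by
    intro κ hκ
    obtain ⟨K, hK⟩ := hall (max κ m) (le_max_right _ _) (max_lt hκ hm3)
    obtain ⟨K', hK'0, hK'⟩ := hK.centre
    refine ⟨K', fun x ξ h => ?_⟩
    obtain ⟨h1, h2⟩ := hK' x ξ h
    refine ⟨h1, h2.trans (mul_le_mul_of_nonneg_left ?_ hK'0)⟩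
    exact rpow_max (norm_nonneg _) (h.2.trans (hρ'ρ.trans S.ρ_le))
      (hm2.trans_le (le_max_right _ _)) (le_max_left _ _)
  have hle : ρ' ≤ ε₀ := hρ'ρ.trans hρε
  have h2a' : P.T2a ρ' := by
    obtain ⟨a1, a2, a3, C4, a4⟩ := h2a
    refine ⟨fun κ hκ k hk => ?_, a2, fun x ξ h => a3 x ξ (nr_mono hle h), C4,
      fun x ξ h => a4 x ξ (nr_mono hle h)⟩
    obtain ⟨M, hM⟩ := a1 κ hκ k hk
    exact ⟨M, fun x ξ h => hM x ξ (nr_mono hle h)⟩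
  have h2h' : P.T2h ρ' := by
    obtain ⟨C2, hC2⟩ := h2h
    exact ⟨C2, fun x ξ h => hC2 x ξ (nr_mono hle h)⟩
  have hH' : HqC P ρ' := by
    obtain ⟨C3, hC3⟩ := hH
    exact ⟨C3, fun x ξ h => hC3 x ξ (nr_mono hle h)⟩
  have hB' : BaseCh P ρ' := by
    obtain ⟨CB, hCB⟩ := hB
    exact ⟨CB, fun x ξ h => hCB x ξ (nr_mono hle h)⟩
  obtain ⟨ε₁, hε1, hε2, hε3⟩ := H988.t3_quant P hρ'0 hR h2a' h2h' hH' hB' hz
  refine ⟨ε₁, hε1, hε2.trans hle, fun ε hε => ⟨fun x ξ h => ?_, fun κ hκ => ?_⟩⟩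
  · obtain ⟨K, hK⟩ := hall m le_rfl hm3
    exact ⟨fun q hq => (hK.glob h hq).1.contDiffWithinAt, fun q hq => (hK.glob h hq).2⟩
  · obtain ⟨K, hK⟩ := hε3 κ hκ
    exact ⟨K, fun x ξ h => hK x ξ (nr_mono hε h)⟩

end Vale.Agent.P207.N4.H761
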